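import Mathlib.LinearAlgebra.QuadraticForm.Basic
import Mathlib.LinearAlgebra.Dual.Lemmas
import Mathlib.Analysis.InnerProductSpace.PiL2
import Mathlib.Analysis.Normed.Module.FiniteDimension
import Mathlib.Topology.Algebra.Module.FiniteDimension

/-! P272/K, block V: reduction of a constant coefficient elliptic operator to the Laplacian. -/

noncomputable section

open Module

namespace Vale.Agent.P272.K.V

variable {E : Type*} [NormedAddCommGroup E] [NormedSpace ℝ E]

/-- `ℓ ⊗ ℓ'` as a bilinear form. -/
def tens (l l' : E →L[ℝ] ℝ) : E →L[ℝ] E →L[ℝ] ℝ := l.smulRight l'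

@[simp] lemma tens_apply (l l' : E →L[ℝ] ℝ) (x y : E) : tens l l' x y = l x * l' y := by
  simp [tens]

lemma tens_add_left (l₁ l₂ l' : E →L[ℝ] ℝ) : tens (l₁ + l₂) l' = tens l₁ l' + tens l₂ l' := by
  ext x y; simp [add_mul]

lemma tens_smul_left (c : ℝ) (l l' : E →L[ℝ] ℝ) : tens (c • l) l' = c • tens l l' := by
  ext x y; simp [mul_assoc]

lemma tens_add_right (l l₁ l₂ : E →L[ℝ] ℝ) : tens l (l₁ + l₂) = tens l l₁ + tens l l₂ := by
  ext x y; simp [mul_add]

lemma tens_smul_right (c : ℝ) (l l' : E →L[ℝ] ℝ) : tens l (c • l') = c • tens l l' := by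
  ext x y; simp; ring

variable [FiniteDimensional ℝ E]

/-- the symmetric bilinear form on the dual defined by `A` -/
def dualForm (A : (E →L[ℝ] E →L[ℝ] ℝ) →L[ℝ] ℝ) : LinearMap.BilinForm ℝ (Dual ℝ E) :=
  LinearMap.mk₂ ℝ (fun l l' => (A (tens l.toContinuousLinearMap l'.toContinuousLinearMap) +
    A (tens l'.toContinuousLinearMap l.toContinuousLinearMap)) / 2)
    (by intro a b c; simp only [map_add, tens_add_left, tens_add_right]; ring)
    (by intro a b c; simp only [map_smul, tens_smul_left, tens_smul_right, smul_eq_mul]; ring)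
    (by intro a b c; simp only [map_add, tens_add_left, tens_add_right]; ring)
    (by intro a b c; simp only [map_smul, tens_smul_left, tens_smul_right, smul_eq_mul]; ring)

/-- A positive functional on bilinear forms is, on symmetric forms, a sum of evaluations on a basis. -/
theorem exists_frame (A : (E →L[ℝ] E →L[ℝ] ℝ) →L[ℝ] ℝ)
    (hA : ∀ l : E →L[ℝ] ℝ, l ≠ 0 → 0 < A (tens l l)) :
    ∃ v : Basis (Fin (finrank ℝ E)) ℝ E, ∀ B : E →L[ℝ] E →L[ℝ] ℝ, (∀ x y, B x y = B y x) →
      A B = ∑ i, B (v i) (v i) := by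
  classical
  have hfr : finrank ℝ (Dual ℝ E) = finrank ℝ E := Subspace.dual_finrank_eq
  have hsymm : (dualForm A).IsSymm := ⟨fun l l' => by simp [dualForm, add_comm]⟩
  obtain ⟨l0, hl0⟩ := LinearMap.BilinForm.exists_orthogonal_basis hsymm
  set l : Basis (Fin (finrank ℝ E)) ℝ (Dual ℝ E) := l0.reindex (finCongr hfr) with hl
  have hortho : ∀ i j, i ≠ j → dualForm A (l i) (l j) = 0 := by
    intro i j hij
    have := hl0 (i := (finCongr hfr).symm i) (j := (finCongr hfr).symm j) (by simpa using hij)
    simpa [hl] using this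
  -- dual basis of `E`
  let w : Basis (Fin (finrank ℝ E)) ℝ E := l.dualBasis.map (evalEquiv ℝ E).symm
  have hw : ∀ i j, l i (w j) = if i = j then 1 else 0 := by
    intro i j
    have : l i (w j) = l.dualBasis j (l i) := by
      simp only [w, Basis.map_apply]
      exact apply_evalEquiv_symm_apply (R := ℝ) (M := E) (l i) (l.dualBasis j)
    rw [this, Basis.dualBasis_apply_self]
  let q : Fin (finrank ℝ E) → ℝ := fun i => dualForm A (l i) (l i)
  have hq : ∀ i, 0 < q i := by
    intro i
    have h1 : (l i).toContinuousLinearMap ≠ 0 := by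
      intro h
      apply l.ne_zero i
      ext x
      have := congrArg (fun f : E →L[ℝ] ℝ => f x) h
      simpa using this
    have h2 := hA _ h1
    simp only [q, dualForm, LinearMap.mk₂_apply]
    linarith
  have hsq : ∀ i, IsUnit (Real.sqrt (q i)) := fun i => (Real.sqrt_pos.2 (hq i)).ne'.isUnit
  refine ⟨w.isUnitSMul hsq, ?_⟩
  intro B hB
  -- expansion of B
  have hexp : B = ∑ i, ∑ j, B (w i) (w j) • tens (l i).toContinuousLinearMap (l j).toContinuousLinearMap := by
    have key : ∀ a b, B (w a) (w b) = (∑ i, ∑ j, B (w i) (w j) • tens (l i).toContinuousLinearMap (l j).toContinuousLinearMap) (w a) (w b) := by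
      intro a b
      simp only [sum_apply, smul_apply, tens_apply,
        LinearMap.coe_toContinuousLinearMap', hw, smul_eq_mul]
      simp
    ext x y
    have h1 : ∀ (C D : E →L[ℝ] E →L[ℝ] ℝ), (∀ a b, C (w a) (w b) = D (w a) (w b)) → C = D := by
      intro C D hCD
      have : ∀ a, C (w a) = D (w a) := by
        intro a
        apply ContinuousLinearMap.coe_injective
        exact w.ext fun b => hCD a b
      apply ContinuousLinearMap.coe_injective
      exact w.ext this
    exact congrArg (fun C : E →L[ℝ] E →L[ℝ] ℝ => C x y) (h1 _ _ key)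
  have hswap : A B = ∑ i, ∑ j, B (w i) (w j) * dualForm A (l i) (l j) := by
    have e1 : A B = ∑ i, ∑ j, B (w i) (w j) * A (tens (l i).toContinuousLinearMap (l j).toContinuousLinearMap) := by
      conv_lhs => rw [hexp]
      simp [map_sum]
    have e2 : A B = ∑ i, ∑ j, B (w i) (w j) * A (tens (l j).toContinuousLinearMap (l i).toContinuousLinearMap) := by
      rw [e1, Finset.sum_comm]
      refine Finset.sum_congr rfl fun i _ => Finset.sum_congr rfl fun j _ => ?_
      rw [hB]
    have : A B = (A B + A B) / 2 := by ring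
    rw [this]
    nth_rewrite 1 [e1]
    rw [e2, ← Finset.sum_add_distrib, Finset.sum_div]
    refine Finset.sum_congr rfl fun i _ => ?_
    rw [← Finset.sum_add_distrib, Finset.sum_div]
    refine Finset.sum_congr rfl fun j _ => ?_
    simp only [dualForm, LinearMap.mk₂_apply]
    ring
  rw [hswap]
  refine Finset.sum_congr rfl fun i _ => ?_
  rw [Finset.sum_eq_single i]
  · simp only [Basis.isUnitSMul_apply, map_smul, smul_apply, smul_eq_mul]
    rw [← mul_assoc, Real.mul_self_sqrt (hq i).le]
    simp only [q]; ring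
  · intro j _ hj
    rw [hortho i j (Ne.symm hj), mul_zero]
  · simp

end Vale.Agent.P272.K.V
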