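import Vale.Agent.P272.K.LIN.Jet
import Vale.Agent.P272.K.V.LinAlg
import Mathlib.Analysis.Calculus.FDeriv.Comp
import Mathlib.Analysis.Calculus.ContDiff.Basic
import Mathlib.Analysis.Calculus.FDeriv.Symmetric

/-! P272/K, block V: constant coefficient resolvent on a finite-dimensional space. -/

open scoped ContDiff
open Module

noncomputable section

namespace Vale.Agent.P272.K.V

open LIN

/-- Block H: the resolvent of the Laplacian of `ℝ^m`. -/
def ResolventH (m : ℕ) (α : ℝ) : Prop :=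
  ∃ C : ℝ, 0 ≤ C ∧ ∀ l : ℝ, 1 ≤ l → ∀ (f : EuclideanSpace ℝ (Fin m) → ℝ) (A B : ℝ),
    0 ≤ B → HB α f A B → ∃ v : EuclideanSpace ℝ (Fin m) → ℝ, ContDiff ℝ 2 v ∧
      (∀ x, l * v x - ∑ i, fderiv ℝ (fderiv ℝ v) x (EuclideanSpace.single i 1)
        (EuclideanSpace.single i 1) = f x) ∧
      ResBd α l C (l ^ (α / 2) * A + B) v

variable {E P : Type*} [NormedAddCommGroup E] [NormedSpace ℝ E] [NormedAddCommGroup P]
  [NormedSpace ℝ P]

omit [NormedSpace ℝ E] in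
lemma HB.mono {V : Type*} [NormedAddCommGroup V] {α : ℝ} {f : E → V} {A B A' B' : ℝ}
    (h : HB α f A B) (hA : A ≤ A') (hB : B ≤ B') : HB α f A' B' :=
  ⟨fun x => (h.sup x).trans hA, fun x y => (h.hol x y).trans
    (mul_le_mul_of_nonneg_right hB (Real.rpow_nonneg (norm_nonneg _) _))⟩

omit [NormedSpace ℝ E] in
lemma HB.nonneg_left {V : Type*} [NormedAddCommGroup V] {α : ℝ} {f : E → V} {A B : ℝ}
    (h : HB α f A B) : 0 ≤ A := (norm_nonneg _).trans (h.sup 0)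

/-- composition with a continuous linear equivalence -/
lemma fderiv_comp_equiv (T : E ≃L[ℝ] P) (v : P → ℝ) (hv : ContDiff ℝ 2 v) (x : E) :
    fderiv ℝ (fun y => v (T y)) x = (fderiv ℝ v (T x)).comp (T : E →L[ℝ] P) := by
  have h1 : HasFDerivAt v (fderiv ℝ v (T x)) (T x) :=
    (hv.differentiable (by norm_num) (T x)).hasFDerivAt
  exact (h1.comp x T.hasFDerivAt).fderiv

lemma fderiv2_comp_equiv (T : E ≃L[ℝ] P) (v : P → ℝ) (hv : ContDiff ℝ 2 v) (x y z : E) :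
    fderiv ℝ (fderiv ℝ (fun y => v (T y))) x y z = fderiv ℝ (fderiv ℝ v) (T x) (T y) (T z) := by
  have h0 : fderiv ℝ (fun y => v (T y)) =
      fun x => (ContinuousLinearMap.compL ℝ E P ℝ).flip (T : E →L[ℝ] P) (fderiv ℝ v (T x)) := by
    funext x
    rw [fderiv_comp_equiv T v hv x]
    rfl
  have h1 : HasFDerivAt (fderiv ℝ v) (fderiv ℝ (fderiv ℝ v) (T x)) (T x) := by
    have : ContDiff ℝ 1 (fderiv ℝ v) := hv.fderiv_right (by norm_num)
    exact (this.differentiable (by norm_num) (T x)).hasFDerivAt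
  have h2 : HasFDerivAt (fun x => (ContinuousLinearMap.compL ℝ E P ℝ).flip (T : E →L[ℝ] P)
      (fderiv ℝ v (T x))) _ x :=
    (((ContinuousLinearMap.compL ℝ E P ℝ).flip (T : E →L[ℝ] P)).hasFDerivAt.comp x
      (h1.comp x T.hasFDerivAt))
  rw [h0, h2.fderiv]
  rfl

/-- pulling back a linear form by `S` -/
def pull1 (S : E →L[ℝ] P) (z : P →L[ℝ] ℝ) : E →L[ℝ] ℝ := z.comp S

lemma norm_pull1_le (S : E →L[ℝ] P) (z : P →L[ℝ] ℝ) : ‖pull1 S z‖ ≤ ‖S‖ * ‖z‖ := by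
  rw [mul_comm]; exact z.opNorm_comp_le _

lemma pull1_sub (S : E →L[ℝ] P) (z z' : P →L[ℝ] ℝ) :
    pull1 S (z - z') = pull1 S z - pull1 S z' := by
  ext x; rfl

/-- pulling back the argument of a bilinear form by `S` -/
def pull2 (S : E →L[ℝ] P) (B : P →L[ℝ] P →L[ℝ] ℝ) : E →L[ℝ] E →L[ℝ] ℝ := B.bilinearComp S S

lemma fderiv2_comp_equiv' (T : E ≃L[ℝ] P) (v : P → ℝ) (hv : ContDiff ℝ 2 v) (x : E) :
    fderiv ℝ (fderiv ℝ (fun y => v (T y))) x =
      pull2 (T : E →L[ℝ] P) (fderiv ℝ (fderiv ℝ v) (T x)) := by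
  ext y z
  rw [fderiv2_comp_equiv T v hv]
  rfl

lemma norm_pull2_le (S : E →L[ℝ] P) (B : P →L[ℝ] P →L[ℝ] ℝ) :
    ‖pull2 S B‖ ≤ ‖S‖ ^ 2 * ‖B‖ := by
  refine ContinuousLinearMap.opNorm_le_bound₂ _ (by positivity) fun x y => ?_
  calc ‖B (S x) (S y)‖ ≤ ‖B‖ * ‖S x‖ * ‖S y‖ := B.le_opNorm₂ _ _
    _ ≤ ‖B‖ * (‖S‖ * ‖x‖) * (‖S‖ * ‖y‖) := by
        gcongr
        · exact S.le_opNorm x
        · exact S.le_opNorm y
    _ = ‖S‖ ^ 2 * ‖B‖ * ‖x‖ * ‖y‖ := by ring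

lemma pull2_sub (S : E →L[ℝ] P) (B B' : P →L[ℝ] P →L[ℝ] ℝ) :
    pull2 S (B - B') = pull2 S B - pull2 S B' := by
  ext x y; rfl

/-- a Hölder bound is preserved by `g ↦ L ∘ g ∘ S`, `S` linear, `L` additive and bounded by `c` -/
lemma HB.comp {V W : Type*} [NormedAddCommGroup V] [NormedAddCommGroup W] {α : ℝ} (hα : 0 ≤ α)
    {g : P → V} {A B : ℝ} (hB : 0 ≤ B) (h : HB α g A B) (S : E →L[ℝ] P) (L : V → W)
    (hL : ∀ x y, L (x - y) = L x - L y) {c : ℝ} (hc : 0 ≤ c) (hLc : ∀ z, ‖L z‖ ≤ c * ‖z‖) :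
    HB α (fun x => L (g (S x))) (c * A) (c * (B * ‖S‖ ^ α)) := by
  refine ⟨fun x => (hLc _).trans (mul_le_mul_of_nonneg_left (h.sup _) hc), fun x y => ?_⟩
  rw [← hL]
  refine (hLc _).trans ?_
  rw [mul_assoc]
  refine mul_le_mul_of_nonneg_left ((h.hol _ _).trans ?_) hc
  rw [mul_assoc, ← map_sub, ← Real.mul_rpow (norm_nonneg _) (norm_nonneg _)]
  exact mul_le_mul_of_nonneg_left (Real.rpow_le_rpow (norm_nonneg _) (S.le_opNorm _) hα) hB

variable [FiniteDimensional ℝ E]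

/-- Constant coefficients: `l v - a₀(D²v) = f` is solvable with the weighted bounds. -/
theorem const_resolvent {α : ℝ} (hα : 0 < α) (hH : ResolventH (finrank ℝ E) α)
    (a₀ : (E →L[ℝ] E →L[ℝ] ℝ) →L[ℝ] ℝ)
    (hpos : ∀ ξ : E →L[ℝ] ℝ, ξ ≠ 0 → 0 < a₀ (ξ.smulRight ξ)) :
    ∃ C : ℝ, 0 ≤ C ∧ ∀ l : ℝ, 1 ≤ l → ∀ (f : E → ℝ) (A B : ℝ), 0 ≤ B → HB α f A B →
      ∃ v : E → ℝ, ContDiff ℝ 2 v ∧ (∀ x, l * v x - a₀ (fderiv ℝ (fderiv ℝ v) x) = f x) ∧
        ResBd α l C (l ^ (α / 2) * A + B) v := by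
  classical
  obtain ⟨C, hC, hH⟩ := hH
  obtain ⟨w, hw⟩ := exists_frame a₀ hpos
  let T : EuclideanSpace ℝ (Fin (finrank ℝ E)) ≃L[ℝ] E :=
    ((EuclideanSpace.basisFun (Fin (finrank ℝ E)) ℝ).toBasis.equiv w
      (Equiv.refl _)).toContinuousLinearEquiv
  have hT : ∀ i, T (EuclideanSpace.single i 1) = w i := by
    intro i
    have := (EuclideanSpace.basisFun (Fin (finrank ℝ E)) ℝ).toBasis.equiv_apply i w (Equiv.refl _)
    simpa [T] using this
  have hTs : ∀ i, T.symm (w i) = EuclideanSpace.single i 1 := fun i => by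
    rw [← hT, T.symm_apply_apply]
  set t : ℝ := ‖(T : EuclideanSpace ℝ (Fin (finrank ℝ E)) →L[ℝ] E)‖ with ht
  set s : ℝ := ‖(T.symm : E →L[ℝ] EuclideanSpace ℝ (Fin (finrank ℝ E)))‖ with hs
  have ht0 : 0 ≤ t := norm_nonneg _
  have hs0 : 0 ≤ s := norm_nonneg _
  have hta : 0 ≤ t ^ α := Real.rpow_nonneg ht0 _
  have hsa : 0 ≤ s ^ α := Real.rpow_nonneg hs0 _
  refine ⟨C * (1 + t ^ α) * ((1 + s ^ α) * (1 + s) ^ 2), by positivity, ?_⟩
  intro l hl f A B hB hf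
  have hA : 0 ≤ A := HB.nonneg_left hf
  have hl0 : 0 ≤ l := by linarith
  have hfT := HB.comp hα.le hB hf (T : EuclideanSpace ℝ (Fin (finrank ℝ E)) →L[ℝ] E)
    (fun z => z) (fun _ _ => rfl) (c := 1) zero_le_one (fun z => by simp)
  rw [one_mul, one_mul] at hfT
  obtain ⟨v, hv2, hveq, hvb⟩ := hH l hl (fun x => f (T x)) A (B * t ^ α) (by positivity) hfT
  have hvc : ContDiff ℝ 2 (fun x => v (T.symm x)) := hv2.comp T.symm.contDiff
  refine ⟨fun x => v (T.symm x), hvc, ?_, ?_⟩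
  · intro x
    have hsym : ∀ y z, fderiv ℝ (fderiv ℝ (fun x => v (T.symm x))) x y z =
        fderiv ℝ (fderiv ℝ (fun x => v (T.symm x))) x z y := by
      intro y z
      have := (hvc.contDiffAt (x := x)).isSymmSndFDerivAt (by simp)
      exact this.eq y z
    rw [hw _ hsym]
    have := hveq (T.symm x)
    simp only [ContinuousLinearEquiv.apply_symm_apply] at this
    rw [← this]
    congr 1
    refine Finset.sum_congr rfl fun i _ => ?_
    rw [fderiv2_comp_equiv T.symm v hv2, hTs]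
  · set N : ℝ := l ^ (α / 2) * A + B with hN
    set N' : ℝ := l ^ (α / 2) * A + B * t ^ α with hN'
    have hlp : ∀ r : ℝ, 0 ≤ l ^ r := fun r => Real.rpow_nonneg hl0 r
    have hlA : 0 ≤ l ^ (α / 2) * A := mul_nonneg (hlp _) hA
    have hN0 : 0 ≤ N := by positivity
    have hN'0 : 0 ≤ N' := by positivity
    have hNN : N' ≤ (1 + t ^ α) * N := by
      rw [hN', hN]
      nlinarith [mul_nonneg hB hta, mul_nonneg hlA hta]
    have key : ∀ k X : ℝ, 0 ≤ X → 0 ≤ k → k ≤ (1 + s ^ α) * (1 + s) ^ 2 →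
        k * (C * N' * X) ≤ C * (1 + t ^ α) * ((1 + s ^ α) * (1 + s) ^ 2) * N * X := by
      intro k X hX hk0 hk
      calc k * (C * N' * X) ≤ ((1 + s ^ α) * (1 + s) ^ 2) * (C * ((1 + t ^ α) * N) * X) := by
            gcongr
        _ = _ := by ring
    have k1 : (1 : ℝ) ≤ (1 + s ^ α) * (1 + s) ^ 2 := by nlinarith [mul_nonneg hsa hs0, mul_nonneg hsa (sq_nonneg s), sq_nonneg s]
    have k2 : s ^ α ≤ (1 + s ^ α) * (1 + s) ^ 2 := by nlinarith [mul_nonneg hsa hs0, mul_nonneg hsa (sq_nonneg s), sq_nonneg s]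
    have k3 : s ≤ (1 + s ^ α) * (1 + s) ^ 2 := by nlinarith [mul_nonneg hsa hs0, mul_nonneg hsa (sq_nonneg s), sq_nonneg s]
    have k4 : s * s ^ α ≤ (1 + s ^ α) * (1 + s) ^ 2 := by nlinarith [mul_nonneg hsa hs0, mul_nonneg hsa (sq_nonneg s), sq_nonneg s]
    have k5 : s ^ 2 ≤ (1 + s ^ α) * (1 + s) ^ 2 := by nlinarith [mul_nonneg hsa hs0, mul_nonneg hsa (sq_nonneg s), sq_nonneg s]
    have k6 : s ^ 2 * s ^ α ≤ (1 + s ^ α) * (1 + s) ^ 2 := by nlinarith [mul_nonneg hsa hs0, mul_nonneg hsa (sq_nonneg s), sq_nonneg s]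
    refine ⟨?_, ?_, ?_⟩
    · refine HB.mono (HB.comp hα.le (by have := hlp (-1); positivity) hvb.zero
        (T.symm : E →L[ℝ] EuclideanSpace ℝ (Fin (finrank ℝ E))) (fun z => z) (fun _ _ => rfl)
        (c := 1) zero_le_one (fun z => by simp)) ?_ ?_
      · exact key 1 _ (hlp _) zero_le_one k1
      · refine le_trans (le_of_eq ?_) (key (s ^ α) _ (hlp (-1)) hsa k2)
        ring
    · have e : fderiv ℝ (fun x => v (T.symm x)) = fun x =>
          pull1 (T.symm : E →L[ℝ] EuclideanSpace ℝ (Fin (finrank ℝ E)))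
            (fderiv ℝ v ((T.symm : E →L[ℝ] EuclideanSpace ℝ (Fin (finrank ℝ E))) x)) := by
        funext x
        exact fderiv_comp_equiv T.symm v hv2 x
      rw [e]
      refine HB.mono (HB.comp hα.le (by have := hlp (-(1/2)); positivity) hvb.one
        (T.symm : E →L[ℝ] EuclideanSpace ℝ (Fin (finrank ℝ E))) _
        (fun _ _ => pull1_sub _ _ _) (c := s) hs0 (fun z => norm_pull1_le _ _)) ?_ ?_
      · exact key s _ (hlp _) hs0 k3
      · refine le_trans (le_of_eq ?_) (key (s * s ^ α) _ (hlp (-(1/2))) (by positivity) k4)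
        ring
    · have e : fderiv ℝ (fderiv ℝ (fun x => v (T.symm x))) = fun x =>
          pull2 (T.symm : E →L[ℝ] EuclideanSpace ℝ (Fin (finrank ℝ E)))
            (fderiv ℝ (fderiv ℝ v)
              ((T.symm : E →L[ℝ] EuclideanSpace ℝ (Fin (finrank ℝ E))) x)) := by
        funext x
        exact fderiv2_comp_equiv' T.symm v hv2 x
      rw [e]
      refine HB.mono (HB.comp hα.le (by positivity) hvb.two
        (T.symm : E →L[ℝ] EuclideanSpace ℝ (Fin (finrank ℝ E))) _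
        (fun _ _ => pull2_sub _ _ _) (c := s ^ 2) (by positivity) (fun z => norm_pull2_le _ _)) ?_ ?_
      · exact key (s ^ 2) _ (hlp _) (by positivity) k5
      · have := key (s ^ 2 * s ^ α) 1 zero_le_one (by positivity) k6
        refine le_trans (le_of_eq ?_) (this.trans (le_of_eq ?_))
        · ring
        · ring

end Vale.Agent.P272.K.V
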