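import Vale.Agent.P272.K.V.Local
import Vale.Agent.P272.K.H.Res

/-! P272/K, block V: the local resolvent, unconditional (block H plugged in). -/

open scoped ContDiff
open Module Metric

set_option maxSynthPendingDepth 3

noncomputable section

namespace Vale.Agent.P272.K.V

open LIN

theorem resolventH (m : ℕ) {α : ℝ} (hα : 0 < α) (hα1 : α < 1) : ResolventH m α := by
  obtain ⟨C, hC, h⟩ := H.resolvent (E := EuclideanSpace ℝ (Fin m)) hα hα1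
  refine ⟨C, hC.le, fun l hl f A B hB hf => ?_⟩
  obtain ⟨h1, h2, h3⟩ := h l (by linarith) f A B hB hf
  refine ⟨_, h1, fun x => ?_, h3⟩
  have := h2 (Fin m) (EuclideanSpace.basisFun (Fin m) ℝ) x
  simpa using this

variable {E : Type*} [NormedAddCommGroup E] [NormedSpace ℝ E] [FiniteDimensional ℝ E]

/-- Constant coefficients: `l v - a₀(D²v) = f` is solvable with the weighted bounds. -/
theorem const_resolvent' {α : ℝ} (hα : 0 < α) (hα1 : α < 1)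
    (a₀ : (E →L[ℝ] E →L[ℝ] ℝ) →L[ℝ] ℝ)
    (hpos : ∀ ξ : E →L[ℝ] ℝ, ξ ≠ 0 → 0 < a₀ (ξ.smulRight ξ)) :
    ∃ C : ℝ, 0 ≤ C ∧ ∀ l : ℝ, 1 ≤ l → ∀ (f : E → ℝ) (A B : ℝ), 0 ≤ B → HB α f A B →
      ∃ v : E → ℝ, ContDiff ℝ 2 v ∧ (∀ x, l * v x - a₀ (fderiv ℝ (fderiv ℝ v) x) = f x) ∧
        ResBd α l C (l ^ (α / 2) * A + B) v :=
  const_resolvent hα (resolventH _ hα hα1) a₀ hpos

/-- **Block V**: the local resolvent of a second order operator with Hölder coefficients. -/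
theorem local_resolvent' {α : ℝ} (hα : 0 < α) (hα1 : α < 1)
    {U : Set E} (hU : IsOpen U) {x₀ : E} (hx₀ : x₀ ∈ U)
    (a : E → (E →L[ℝ] E →L[ℝ] ℝ) →L[ℝ] ℝ) (b : E → (E →L[ℝ] ℝ) →L[ℝ] ℝ)
    (ha : ∃ K, ∀ x ∈ U, ∀ y ∈ U, ‖a x - a y‖ ≤ K * ‖x - y‖ ^ α)
    (hb : ∃ K, ∀ x ∈ U, ∀ y ∈ U, ‖b x - b y‖ ≤ K * ‖x - y‖ ^ α)
    (hpos : ∀ ξ : E →L[ℝ] ℝ, ξ ≠ 0 → 0 < a x₀ (ξ.smulRight ξ)) :
    ∃ r > 0, closedBall x₀ r ⊆ U ∧ ∃ C : ℝ, 0 ≤ C ∧ ∃ l₀ : ℝ, 1 ≤ l₀ ∧ ∀ l : ℝ, l₀ ≤ l →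
      ∀ (f : E → ℝ) (A B : ℝ), 0 ≤ B → HB α f A B →
        ∃ v : E → ℝ, ContDiff ℝ 2 v ∧
          (∀ x ∈ closedBall x₀ r,
            l * v x - a x (fderiv ℝ (fderiv ℝ v) x) - b x (fderiv ℝ v x) = f x) ∧
          ResBd α l C (l ^ (α / 2) * A + B) v :=
  local_resolvent hα hα1 (resolventH _ hα hα1) hU hx₀ a b ha hb hpos

end Vale.Agent.P272.K.V
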