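import Vale.Agent.P272.K.V.Const
import Mathlib.Analysis.Calculus.SmoothSeries
import Mathlib.Analysis.SpecificLimits.Basic

/-! P272/K, block V: iteration (Neumann series in `C²`). -/

open scoped ContDiff
open Module

noncomputable section

namespace Vale.Agent.P272.K.V

open LIN

variable {E : Type*} [NormedAddCommGroup E] [NormedSpace ℝ E]

omit [NormedSpace ℝ E] in
/-- Hölder bound of a product (application of a family of functionals). -/
lemma HB.apply {W : Type*} [NormedAddCommGroup W] [NormedSpace ℝ W] {α : ℝ}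
    {c : E → W →L[ℝ] ℝ} {g : E → W} {M K A B : ℝ} (hM : 0 ≤ M) (hK : 0 ≤ K)
    (hc : HB α c M K) (hg : HB α g A B) :
    HB α (fun x => c x (g x)) (M * A) (M * B + K * A) := by
  have hA : 0 ≤ A := HB.nonneg_left hg
  refine ⟨fun x => ?_, fun x y => ?_⟩
  · calc ‖c x (g x)‖ ≤ ‖c x‖ * ‖g x‖ := (c x).le_opNorm _
      _ ≤ M * A := mul_le_mul (hc.sup x) (hg.sup x) (norm_nonneg _) hM
  · have e : c x (g x) - c y (g y) = c x (g x - g y) + (c x - c y) (g y) := by
      simp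
    rw [e]
    calc ‖c x (g x - g y) + (c x - c y) (g y)‖ ≤ ‖c x‖ * ‖g x - g y‖ + ‖c x - c y‖ * ‖g y‖ :=
          (norm_add_le _ _).trans (add_le_add ((c x).le_opNorm _) ((c x - c y).le_opNorm _))
      _ ≤ M * (B * ‖x - y‖ ^ α) + (K * ‖x - y‖ ^ α) * A := by
          gcongr
          · exact hc.sup x
          · exact hg.hol x y
          · exact hc.hol x y
          · exact hg.sup y
      _ = (M * B + K * A) * ‖x - y‖ ^ α := by ring

omit [NormedSpace ℝ E] in
lemma HB.add {W : Type*} [NormedAddCommGroup W] {α : ℝ} {f g : E → W} {A B A' B' : ℝ}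
    (hf : HB α f A B) (hg : HB α g A' B') : HB α (fun x => f x + g x) (A + A') (B + B') := by
  refine ⟨fun x => (norm_add_le _ _).trans (add_le_add (hf.sup x) (hg.sup x)), fun x y => ?_⟩
  have e : f x + g x - (f y + g y) = (f x - f y) + (g x - g y) := by abel
  rw [e, add_mul]
  exact (norm_add_le _ _).trans (add_le_add (hf.hol x y) (hg.hol x y))

omit [NormedSpace ℝ E] in
lemma HB.tsum {W : Type*} [NormedAddCommGroup W] [CompleteSpace W] {α : ℝ} {g : ℕ → E → W}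
    {A B : ℝ} (h : ∀ k, HB α (g k) (A * (1 / 2) ^ k) (B * (1 / 2) ^ k)) :
    HB α (fun x => ∑' k, g k x) (2 * A) (2 * B) := by
  have hs : ∀ c : ℝ, HasSum (fun k : ℕ => c * (1 / 2) ^ k) (2 * c) := fun c => by
    rw [mul_comm 2 c]; exact hasSum_geometric_two.mul_left c
  have hsum : ∀ x, Summable fun k => g k x := fun x =>
    Summable.of_norm_bounded (hs A).summable fun k => (h k).sup x
  refine ⟨fun x => tsum_of_norm_bounded (hs A) fun k => (h k).sup x, fun x y => ?_⟩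
  rw [← (hsum x).tsum_sub (hsum y)]
  have := hs (B * ‖x - y‖ ^ α)
  refine (tsum_of_norm_bounded this fun k => ((h k).hol x y).trans (le_of_eq (by ring))).trans
    (le_of_eq (by ring))

omit [NormedSpace ℝ E] in
lemma HB.summable {W : Type*} [NormedAddCommGroup W] [CompleteSpace W] {α : ℝ} {g : ℕ → E → W}
    {A B : ℝ} (h : ∀ k, HB α (g k) (A * (1 / 2) ^ k) (B * (1 / 2) ^ k)) (x : E) :
    Summable fun k => g k x :=
  Summable.of_norm_bounded (hasSum_geometric_two.mul_left A).summable fun k => (h k).sup x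

/-- series of `C²` functions with geometric bounds -/
lemma series_c2 {α l C N : ℝ} (V : ℕ → E → ℝ) (hV : ∀ k, ContDiff ℝ 2 (V k))
    (hb : ∀ k, ResBd α l C (N * (1 / 2) ^ k) (V k)) :
    ContDiff ℝ 2 (fun x => ∑' k, V k x) ∧ ResBd α l (2 * C) N (fun x => ∑' k, V k x) ∧
      ∀ x, HasSum (fun k => jet (V k) x) (jet (fun x => ∑' k, V k x) x) := by
  have hb0 : ∀ k, HB α (V k) (C * N * l ^ (-(1 + α / 2)) * (1 / 2) ^ k)
      (C * N * l ^ (-1 : ℝ) * (1 / 2) ^ k) := fun k =>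
    HB.mono (hb k).zero (le_of_eq (by ring)) (le_of_eq (by ring))
  have hb1 : ∀ k, HB α (fderiv ℝ (V k)) (C * N * l ^ (-((1 + α) / 2)) * (1 / 2) ^ k)
      (C * N * l ^ (-(1 / 2) : ℝ) * (1 / 2) ^ k) := fun k =>
    HB.mono (hb k).one (le_of_eq (by ring)) (le_of_eq (by ring))
  have hb2 : ∀ k, HB α (fderiv ℝ (fderiv ℝ (V k))) (C * N * l ^ (-(α / 2)) * (1 / 2) ^ k)
      (C * N * (1 / 2) ^ k) := fun k =>
    HB.mono (hb k).two (le_of_eq (by ring)) (le_of_eq (by ring))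
  have hgeo : ∀ c : ℝ, Summable fun k : ℕ => c * (1 / 2) ^ k := fun c =>
    (hasSum_geometric_two.mul_left c).summable
  have hd1 : (fderiv ℝ fun x => ∑' k, V k x) = fun x => ∑' k, fderiv ℝ (V k) x :=
    fderiv_tsum (hgeo _) (fun k => (hV k).differentiable (by norm_num))
      (fun k x => (hb1 k).sup x) (x₀ := 0)
      (Summable.of_norm_bounded (hgeo _) fun k => (hb0 k).sup 0)
  have hd2 : (fderiv ℝ fun x => ∑' k, fderiv ℝ (V k) x) =
      fun x => ∑' k, fderiv ℝ (fderiv ℝ (V k)) x :=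
    fderiv_tsum (hgeo _) (fun k => ((hV k).fderiv_right (m := 1) (by norm_num)).differentiable
      (by norm_num)) (fun k x => (hb2 k).sup x) (x₀ := 0)
      (Summable.of_norm_bounded (hgeo _) fun k => (hb1 k).sup 0)
  refine ⟨?_, ⟨?_, ?_, ?_⟩, ?_⟩
  · refine contDiff_tsum (v := fun j k => if j = 0 then C * N * l ^ (-(1 + α / 2)) * (1 / 2) ^ k
      else if j = 1 then C * N * l ^ (-((1 + α) / 2)) * (1 / 2) ^ k
      else C * N * l ^ (-(α / 2)) * (1 / 2) ^ k) hV ?_ ?_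
    · intro j _
      split_ifs <;> exact hgeo _
    · intro j k x hj
      have hj2 : j ≤ 2 := by exact_mod_cast hj
      interval_cases j
      · simpa using (hb0 k).sup x
      · simpa [norm_iteratedFDeriv_one] using (hb1 k).sup x
      · have h3 : ‖iteratedFDeriv ℝ 2 (V k) x‖ = ‖fderiv ℝ (fderiv ℝ (V k)) x‖ := by
          rw [← norm_iteratedFDeriv_fderiv, norm_iteratedFDeriv_one]
        simpa [h3] using (hb2 k).sup x
  · refine HB.mono (HB.tsum hb0) (le_of_eq ?_) (le_of_eq ?_) <;> ring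
  · rw [hd1]
    refine HB.mono (HB.tsum hb1) (le_of_eq ?_) (le_of_eq ?_) <;> ring
  · rw [hd1, hd2]
    refine HB.mono (HB.tsum hb2) (le_of_eq ?_) (le_of_eq ?_) <;> ring
  · intro x
    have s0 : Summable fun k => V k x := HB.summable hb0 x
    have s1 : Summable fun k => fderiv ℝ (V k) x := HB.summable hb1 x
    have s2 : Summable fun k => fderiv ℝ (fderiv ℝ (V k)) x := HB.summable hb2 x
    have e1 : fderiv ℝ (fun x => ∑' k, V k x) x = ∑' k, fderiv ℝ (V k) x := congrFun hd1 x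
    have e2 : fderiv ℝ (fderiv ℝ (fun x => ∑' k, V k x)) x =
        ∑' k, fderiv ℝ (fderiv ℝ (V k)) x := by
      rw [hd1]; exact congrFun hd2 x
    have e : jet (fun x => ∑' k, V k x) x =
        (∑' k, V k x, ∑' k, fderiv ℝ (V k) x, ∑' k, fderiv ℝ (fderiv ℝ (V k)) x) :=
      Prod.ext rfl (Prod.ext e1 e2)
    rw [e]
    exact s0.hasSum.prodMk (s1.hasSum.prodMk s2.hasSum)

lemma ResBd.mono_N {α l C N N' : ℝ} {v : E → ℝ} (hl : 0 < l) (hC : 0 ≤ C) (h : ResBd α l C N v)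
    (hN : N ≤ N') : ResBd α l C N' v := by
  have hlp : ∀ r : ℝ, 0 ≤ l ^ r := fun r => (Real.rpow_pos_of_pos hl r).le
  have key : ∀ X : ℝ, 0 ≤ X → C * N * X ≤ C * N' * X := fun X hX => by gcongr
  refine ⟨HB.mono h.zero (key _ (hlp _)) (key _ (hlp _)),
    HB.mono h.one (key _ (hlp _)) (key _ (hlp _)), HB.mono h.two (key _ (hlp _)) ?_⟩
  gcongr

/-- the induction: if `Φ` can be solved up to an error of half the size, it can be solved -/
theorem iterate {α l C : ℝ} (hl : 0 < l) (hC : 0 ≤ C)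
    (Φ : E → Jet E →L[ℝ] ℝ)
    (step : ∀ (f : E → ℝ) (A B : ℝ), 0 ≤ B → HB α f A B →
      ∃ v : E → ℝ, ContDiff ℝ 2 v ∧ ResBd α l C (l ^ (α / 2) * A + B) v ∧
        ∃ (f' : E → ℝ) (A' B' : ℝ), 0 ≤ B' ∧ HB α f' A' B' ∧
          l ^ (α / 2) * A' + B' ≤ (l ^ (α / 2) * A + B) / 2 ∧
          ∀ x, Φ x (jet v x) = f x - f' x)
    (f : E → ℝ) (A B : ℝ) (hB : 0 ≤ B) (hf : HB α f A B) :
    ∃ v : E → ℝ, ContDiff ℝ 2 v ∧ ResBd α l (2 * C) (l ^ (α / 2) * A + B) v ∧
      ∀ x, Φ x (jet v x) = f x := by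
  classical
  let S : Type _ := {p : (E → ℝ) × ℝ × ℝ // 0 ≤ p.2.2 ∧ HB α p.1 p.2.1 p.2.2}
  let nrm : S → ℝ := fun p => l ^ (α / 2) * p.1.2.1 + p.1.2.2
  have step' : ∀ p : S, ∃ (v : E → ℝ) (q : S), ContDiff ℝ 2 v ∧ ResBd α l C (nrm p) v ∧
      nrm q ≤ nrm p / 2 ∧ ∀ x, Φ x (jet v x) = p.1.1 x - q.1.1 x := by
    rintro ⟨⟨f, A, B⟩, hB, hf⟩
    obtain ⟨v, h1, h2, f', A', B', h3, h4, h5, h6⟩ := step f A B hB hf
    exact ⟨v, ⟨(f', A', B'), h3, h4⟩, h1, h2, h5, h6⟩
  choose V Q hV hR hQ hΦ using step'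
  let s : ℕ → S := fun k => Q^[k] ⟨(f, A, B), hB, hf⟩
  have hs0 : s 0 = ⟨(f, A, B), hB, hf⟩ := rfl
  have hs1 : ∀ k, s (k + 1) = Q (s k) := fun k => Function.iterate_succ_apply' _ _ _
  set N : ℝ := l ^ (α / 2) * A + B with hN
  have hnrm : ∀ k, nrm (s k) ≤ N * (1 / 2) ^ k := by
    intro k
    induction k with
    | zero => simp [hs0, nrm, hN]
    | succ k ih =>
      rw [hs1]
      refine (hQ _).trans ?_
      rw [pow_succ]
      linarith
  obtain ⟨h1, h2, h3⟩ := series_c2 (fun k => V (s k)) (fun k => hV (s k))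
    (fun k => ResBd.mono_N hl hC (hR (s k)) (hnrm k))
  refine ⟨_, h1, h2, fun x => ?_⟩
  have hF : Summable fun k => (s k).1.1 x := by
    refine Summable.of_norm_bounded
      ((hasSum_geometric_two.mul_left (N / l ^ (α / 2))).summable) fun k => ?_
    refine ((s k).2.2.sup x).trans ?_
    have h1 := hnrm k
    have h2 : 0 ≤ (s k).1.2.2 := (s k).2.1
    have h3 : 0 < l ^ (α / 2) := Real.rpow_pos_of_pos hl _
    rw [div_mul_eq_mul_div, le_div_iff₀ h3]
    simp only [nrm] at h1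
    linarith
  have h4 := (Φ x).hasSum (h3 x)
  have h5 : ∀ k, Φ x (jet (V (s k)) x) = (s k).1.1 x - (s (k + 1)).1.1 x := by
    intro k
    rw [hs1]
    exact hΦ (s k) x
  rw [← h4.tsum_eq]
  simp only [h5]
  rw [hF.tsum_sub ((summable_nat_add_iff 1).2 hF), hF.tsum_eq_zero_add]
  simp [hs0]

end Vale.Agent.P272.K.V
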