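import Vale.Agent.P272.K.V.Iter
import Mathlib.Analysis.SpecialFunctions.Pow.Continuity
import Mathlib.Analysis.SpecialFunctions.Pow.Asymptotics

/-! P272/K, block V: the local resolvent of an operator with Hölder coefficients. -/

open scoped ContDiff
open Module Metric

set_option maxSynthPendingDepth 3

noncomputable section

namespace Vale.Agent.P272.K.V

open LIN

variable {E : Type*} [NormedAddCommGroup E] [NormedSpace ℝ E]

/-- cutoff function: `1` on the ball of radius `r`, `0` outside the ball of radius `2r` -/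
def cut (x₀ : E) (r : ℝ) (x : E) : ℝ := max 0 (min 1 (2 - ‖x - x₀‖ / r))

omit [NormedSpace ℝ E] in
lemma cut_nonneg (x₀ : E) (r : ℝ) (x : E) : 0 ≤ cut x₀ r x := le_max_left _ _

omit [NormedSpace ℝ E] in
lemma cut_le_one (x₀ : E) (r : ℝ) (x : E) : cut x₀ r x ≤ 1 :=
  max_le zero_le_one (min_le_left _ _)

omit [NormedSpace ℝ E] in
lemma cut_eq_one {x₀ : E} {r : ℝ} (hr : 0 < r) {x : E} (hx : ‖x - x₀‖ ≤ r) : cut x₀ r x = 1 := by
  have : ‖x - x₀‖ / r ≤ 1 := (div_le_one hr).2 hx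
  simp only [cut]
  rw [min_eq_left (by linarith), max_eq_right zero_le_one]

omit [NormedSpace ℝ E] in
lemma cut_eq_zero {x₀ : E} {r : ℝ} (hr : 0 < r) {x : E} (hx : 2 * r < ‖x - x₀‖) :
    cut x₀ r x = 0 := by
  have : 2 ≤ ‖x - x₀‖ / r := (le_div_iff₀ hr).2 hx.le
  simp only [cut]
  exact max_eq_left ((min_le_right _ _).trans (by linarith))

omit [NormedSpace ℝ E] in
lemma cut_hol {α : ℝ} (hα : 0 < α) (hα1 : α < 1) {x₀ : E} {r : ℝ} (hr : 0 < r) (x y : E) :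
    |cut x₀ r x - cut x₀ r y| ≤ r ^ (-α) * ‖x - y‖ ^ α := by
  have h1 : |cut x₀ r x - cut x₀ r y| ≤ ‖x - y‖ / r := by
    simp only [cut]
    refine (abs_max_sub_max_le_max _ _ _ _).trans ?_
    rw [sub_self, abs_zero]
    refine max_le (by positivity) ?_
    refine (abs_min_sub_min_le_max _ _ _ _).trans ?_
    rw [sub_self, abs_zero]
    refine max_le (by positivity) ?_
    have e : 2 - ‖x - x₀‖ / r - (2 - ‖y - x₀‖ / r) = (‖y - x₀‖ - ‖x - x₀‖) / r := by ring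
    rw [e, abs_div, abs_of_pos hr]
    gcongr
    refine (abs_norm_sub_norm_le _ _).trans (le_of_eq ?_)
    rw [norm_sub_rev]
    congr 1
    abel
  have h2 : |cut x₀ r x - cut x₀ r y| ≤ 1 := by
    rw [abs_le]
    constructor <;> linarith [cut_nonneg x₀ r x, cut_nonneg x₀ r y, cut_le_one x₀ r x, cut_le_one x₀ r y]
  have e : r ^ (-α) * ‖x - y‖ ^ α = (‖x - y‖ / r) ^ α := by
    rw [Real.div_rpow (norm_nonneg _) hr.le, Real.rpow_neg hr.le]
    field_simp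
  rw [e]
  have h0 : 0 ≤ ‖x - y‖ / r := by positivity
  rcases le_total (‖x - y‖ / r) 1 with h | h
  · refine h1.trans ?_
    calc ‖x - y‖ / r = (‖x - y‖ / r) ^ (1 : ℝ) := (Real.rpow_one _).symm
      _ ≤ (‖x - y‖ / r) ^ α := by
        rcases h0.eq_or_lt with h' | h'
        · rw [← h', Real.zero_rpow one_ne_zero, Real.zero_rpow hα.ne']
        · exact Real.rpow_le_rpow_of_exponent_ge h' h hα1.le
  · exact h2.trans (Real.one_le_rpow h hα.le)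

omit [NormedSpace ℝ E] in
/-- a function which is Hölder near `x₀`, multiplied by the cutoff, is Hölder -/
lemma cut_smul_hb {W : Type*} [NormedAddCommGroup W] [NormedSpace ℝ W] {α : ℝ} (hα : 0 < α)
    (hα1 : α < 1) {x₀ : E} {r : ℝ} (hr : 0 < r) {c : E → W} {M K : ℝ} (hM : 0 ≤ M) (hK : 0 ≤ K)
    (hcM : ∀ x, ‖x - x₀‖ ≤ 2 * r → ‖c x‖ ≤ M)
    (hcK : ∀ x y, ‖x - x₀‖ ≤ 2 * r → ‖y - x₀‖ ≤ 2 * r → ‖c x - c y‖ ≤ K * ‖x - y‖ ^ α) :
    HB α (fun x => cut x₀ r x • c x) M (K + M * r ^ (-α)) := by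
  have hra : 0 ≤ r ^ (-α) := (Real.rpow_pos_of_pos hr _).le
  refine ⟨fun x => ?_, ?_⟩
  · rw [norm_smul, Real.norm_eq_abs, abs_of_nonneg (cut_nonneg _ _ _)]
    rcases le_or_gt ‖x - x₀‖ (2 * r) with h | h
    · calc cut x₀ r x * ‖c x‖ ≤ 1 * M :=
          mul_le_mul (cut_le_one _ _ _) (hcM x h) (norm_nonneg _) zero_le_one
        _ = M := one_mul _
    · rw [cut_eq_zero hr h, zero_mul]; exact hM
  -- one point in the ball
  have key : ∀ x y, ‖x - x₀‖ ≤ 2 * r →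
      ‖cut x₀ r x • c x - cut x₀ r y • c y‖ ≤ (K + M * r ^ (-α)) * ‖x - y‖ ^ α := by
    intro x y hx
    have hxy : 0 ≤ ‖x - y‖ ^ α := Real.rpow_nonneg (norm_nonneg _) _
    have h1 : ‖(cut x₀ r x - cut x₀ r y) • c x‖ ≤ M * r ^ (-α) * ‖x - y‖ ^ α := by
      rw [norm_smul, Real.norm_eq_abs]
      calc |cut x₀ r x - cut x₀ r y| * ‖c x‖ ≤ (r ^ (-α) * ‖x - y‖ ^ α) * M :=
            mul_le_mul (cut_hol hα hα1 hr x y) (hcM x hx) (norm_nonneg _) (by positivity)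
        _ = _ := by ring
    rcases le_or_gt ‖y - x₀‖ (2 * r) with h | h
    · have e : cut x₀ r x • c x - cut x₀ r y • c y =
          (cut x₀ r x - cut x₀ r y) • c x + cut x₀ r y • (c x - c y) := by
        rw [sub_smul, smul_sub]; abel
      have h2 : ‖cut x₀ r y • (c x - c y)‖ ≤ K * ‖x - y‖ ^ α := by
        rw [norm_smul, Real.norm_eq_abs, abs_of_nonneg (cut_nonneg _ _ _)]
        calc cut x₀ r y * ‖c x - c y‖ ≤ 1 * (K * ‖x - y‖ ^ α) :=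
              mul_le_mul (cut_le_one _ _ _) (hcK x y hx h) (norm_nonneg _) zero_le_one
          _ = _ := one_mul _
      rw [e]
      refine (norm_add_le _ _).trans ?_
      rw [add_mul]
      linarith
    · have e : cut x₀ r x • c x - cut x₀ r y • c y = (cut x₀ r x - cut x₀ r y) • c x := by
        rw [cut_eq_zero hr h]; simp
      rw [e, add_mul]
      have : 0 ≤ K * ‖x - y‖ ^ α := mul_nonneg hK hxy
      linarith
  intro x y
  rcases le_or_gt ‖x - x₀‖ (2 * r) with h | h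
  · exact key x y h
  rcases le_or_gt ‖y - x₀‖ (2 * r) with h' | h'
  · rw [norm_sub_rev, norm_sub_rev x y]
    exact key y x h'
  · rw [cut_eq_zero hr h, cut_eq_zero hr h']
    simp only [zero_smul, sub_self, norm_zero]
    exact mul_nonneg (by positivity) (Real.rpow_nonneg (norm_nonneg _) _)

/-- `v ↦ l v - a(D²v) - b(Dv)` on jets -/
def opJet (l : ℝ) (a : (E →L[ℝ] E →L[ℝ] ℝ) →L[ℝ] ℝ) (b : (E →L[ℝ] ℝ) →L[ℝ] ℝ) :
    Jet E →L[ℝ] ℝ :=
  l • ContinuousLinearMap.fst ℝ ℝ _ -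
    a.comp ((ContinuousLinearMap.snd ℝ _ _).comp (ContinuousLinearMap.snd ℝ ℝ _)) -
    b.comp ((ContinuousLinearMap.fst ℝ _ _).comp (ContinuousLinearMap.snd ℝ ℝ _))

lemma opJet_apply (l : ℝ) (a : (E →L[ℝ] E →L[ℝ] ℝ) →L[ℝ] ℝ) (b : (E →L[ℝ] ℝ) →L[ℝ] ℝ)
    (v : E → ℝ) (x : E) :
    opJet l a b (jet v x) = l * v x - a (fderiv ℝ (fderiv ℝ v) x) - b (fderiv ℝ v x) := rfl

/-- arithmetic of one step -/
lemma step_arith {α l C N M₁ K₁ M₂ K₂ : ℝ} (hα : 0 < α) (hα1 : α < 1) (hl : 1 ≤ l) (hC : 0 ≤ C)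
    (hN : 0 ≤ N) (_ : 0 ≤ M₁) (_ : 0 ≤ K₁) (hM₂ : 0 ≤ M₂) (hK₂ : 0 ≤ K₂)
    (h1 : C * (2 * M₁) ≤ 1 / 4) (h2 : C * (2 * M₂ + K₁ + K₂) * l ^ (-(α / 2)) ≤ 1 / 4) :
    l ^ (α / 2) * (M₁ * (C * N * l ^ (-(α / 2))) + M₂ * (C * N * l ^ (-((1 + α) / 2)))) +
      ((M₁ * (C * N) + K₁ * (C * N * l ^ (-(α / 2)))) +
        (M₂ * (C * N * l ^ (-(1 / 2) : ℝ)) + K₂ * (C * N * l ^ (-((1 + α) / 2))))) ≤ N / 2 := by
  have hl0 : 0 < l := by linarith
  have e1 : l ^ (α / 2) * l ^ (-(α / 2)) = 1 := by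
    rw [← Real.rpow_add hl0]; simp
  have e2 : l ^ (α / 2) * l ^ (-((1 + α) / 2)) = l ^ (-(1 / 2) : ℝ) := by
    rw [← Real.rpow_add hl0]; congr 1; ring
  have h3 : l ^ (-(1 / 2) : ℝ) ≤ l ^ (-(α / 2)) :=
    Real.rpow_le_rpow_of_exponent_le hl (by linarith)
  have h4 : l ^ (-((1 + α) / 2)) ≤ l ^ (-(α / 2)) :=
    Real.rpow_le_rpow_of_exponent_le hl (by linarith)
  set q := l ^ (-(α / 2)) with hq
  set q' := l ^ (-(1 / 2) : ℝ) with hq'
  set q'' := l ^ (-((1 + α) / 2)) with hq''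
  have hCN : 0 ≤ C * N := mul_nonneg hC hN
  calc l ^ (α / 2) * (M₁ * (C * N * q) + M₂ * (C * N * q'')) +
        ((M₁ * (C * N) + K₁ * (C * N * q)) + (M₂ * (C * N * q') + K₂ * (C * N * q'')))
      = (C * N) * (2 * M₁ + 2 * M₂ * q' + K₁ * q + K₂ * q'') := by
        have : l ^ (α / 2) * (M₁ * (C * N * q) + M₂ * (C * N * q'')) =
            M₁ * (C * N) * (l ^ (α / 2) * q) + M₂ * (C * N) * (l ^ (α / 2) * q'') := by ring
        rw [this, e1, e2]; ring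
    _ ≤ (C * N) * (2 * M₁ + 2 * M₂ * q + K₁ * q + K₂ * q) := by gcongr
    _ = (C * (2 * M₁) + C * (2 * M₂ + K₁ + K₂) * q) * N := by ring
    _ ≤ (1 / 4 + 1 / 4) * N := by gcongr
    _ = N / 2 := by ring

variable [FiniteDimensional ℝ E]

/-- **Block V**: the local resolvent of a second order operator with Hölder coefficients. -/
theorem local_resolvent {α : ℝ} (hα : 0 < α) (hα1 : α < 1) (hH : ResolventH (finrank ℝ E) α)
    {U : Set E} (hU : IsOpen U) {x₀ : E} (hx₀ : x₀ ∈ U)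
    (a : E → (E →L[ℝ] E →L[ℝ] ℝ) →L[ℝ] ℝ) (b : E → (E →L[ℝ] ℝ) →L[ℝ] ℝ)
    (ha : ∃ K, ∀ x ∈ U, ∀ y ∈ U, ‖a x - a y‖ ≤ K * ‖x - y‖ ^ α)
    (hb : ∃ K, ∀ x ∈ U, ∀ y ∈ U, ‖b x - b y‖ ≤ K * ‖x - y‖ ^ α)
    (hpos : ∀ ξ : E →L[ℝ] ℝ, ξ ≠ 0 → 0 < a x₀ (ξ.smulRight ξ)) :
    ∃ r > 0, closedBall x₀ r ⊆ U ∧ ∃ C : ℝ, 0 ≤ C ∧ ∃ l₀ : ℝ, 1 ≤ l₀ ∧ ∀ l : ℝ, l₀ ≤ l →
      ∀ (f : E → ℝ) (A B : ℝ), 0 ≤ B → HB α f A B →
        ∃ v : E → ℝ, ContDiff ℝ 2 v ∧
          (∀ x ∈ closedBall x₀ r,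
            l * v x - a x (fderiv ℝ (fderiv ℝ v) x) - b x (fderiv ℝ v x) = f x) ∧
          ResBd α l C (l ^ (α / 2) * A + B) v := by
  obtain ⟨C, hC, hres⟩ := const_resolvent hα hH (a x₀) hpos
  obtain ⟨Ka', ha⟩ := ha
  obtain ⟨Kb', hb⟩ := hb
  set Ka := max Ka' 0 with hKa
  set Kb := max Kb' 0 with hKb
  have hKa0 : 0 ≤ Ka := le_max_right _ _
  have hKb0 : 0 ≤ Kb := le_max_right _ _
  replace ha : ∀ x ∈ U, ∀ y ∈ U, ‖a x - a y‖ ≤ Ka * ‖x - y‖ ^ α := fun x hx y hy =>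
    (ha x hx y hy).trans (mul_le_mul_of_nonneg_right (le_max_left _ _)
      (Real.rpow_nonneg (norm_nonneg _) _))
  replace hb : ∀ x ∈ U, ∀ y ∈ U, ‖b x - b y‖ ≤ Kb * ‖x - y‖ ^ α := fun x hx y hy =>
    (hb x hx y hy).trans (mul_le_mul_of_nonneg_right (le_max_left _ _)
      (Real.rpow_nonneg (norm_nonneg _) _))
  -- choice of the radius
  obtain ⟨R, hR, hRU⟩ := Metric.isOpen_iff.1 hU x₀ hx₀
  obtain ⟨r, hr, hrR, hrC⟩ : ∃ r : ℝ, 0 < r ∧ 2 * r < R ∧ C * (2 * (Ka * (2 * r) ^ α)) ≤ 1 / 4 := by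
    have ht : Filter.Tendsto (fun r : ℝ => C * (2 * (Ka * (2 * r) ^ α))) (nhdsWithin 0 (Set.Ioi 0))
        (nhds (C * (2 * (Ka * (2 * 0) ^ α)))) := by
      have h1 : Continuous fun r : ℝ => C * (2 * (Ka * (2 * r) ^ α)) := by
        have : Continuous fun r : ℝ => (2 * r) ^ α :=
          (continuous_const.mul continuous_id).rpow_const fun _ => Or.inr hα.le
        fun_prop
      exact (h1.tendsto 0).mono_left nhdsWithin_le_nhds
    rw [mul_zero, Real.zero_rpow hα.ne', mul_zero, mul_zero, mul_zero] at ht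
    have h1 : ∀ᶠ r : ℝ in nhdsWithin 0 (Set.Ioi 0), C * (2 * (Ka * (2 * r) ^ α)) ≤ 1 / 4 :=
      ht.eventually (Iic_mem_nhds (by norm_num))
    have h2 : ∀ᶠ r : ℝ in nhdsWithin 0 (Set.Ioi 0), 2 * r < R := by
      have : ∀ᶠ r : ℝ in nhds 0, 2 * r < R := by
        have h3 : Filter.Tendsto (fun r : ℝ => 2 * r) (nhds 0) (nhds (2 * 0)) :=
          (continuous_const.mul continuous_id).tendsto 0
        rw [mul_zero] at h3
        exact h3.eventually (Iio_mem_nhds hR)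
      exact this.filter_mono nhdsWithin_le_nhds
    have h3 : ∀ᶠ r : ℝ in nhdsWithin 0 (Set.Ioi 0), 0 < r := eventually_mem_nhdsWithin
    obtain ⟨r, h4, h5, h6⟩ := (h1.and (h2.and h3)).exists
    exact ⟨r, h6, h5, h4⟩
  have hball : ∀ x, ‖x - x₀‖ ≤ 2 * r → x ∈ U := fun x hx => hRU (by
    rw [mem_ball, dist_eq_norm]; linarith)
  set M₁ : ℝ := Ka * (2 * r) ^ α with hM₁
  have hM₁0 : 0 ≤ M₁ := mul_nonneg hKa0 (Real.rpow_nonneg (by linarith) _)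
  set M₂ : ℝ := ‖b x₀‖ + Kb * (2 * r) ^ α with hM₂
  have hM₂0 : 0 ≤ M₂ := add_nonneg (norm_nonneg _) (mul_nonneg hKb0 (Real.rpow_nonneg (by linarith) _))
  have hra : 0 ≤ r ^ (-α) := (Real.rpow_pos_of_pos hr _).le
  set K₁ : ℝ := Ka + M₁ * r ^ (-α) with hK₁
  set K₂ : ℝ := Kb + M₂ * r ^ (-α) with hK₂
  have hK₁0 : 0 ≤ K₁ := by positivity
  have hK₂0 : 0 ≤ K₂ := by positivity
  have hcm : HB α (fun x => cut x₀ r x • (a x - a x₀)) M₁ K₁ := by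
    refine cut_smul_hb hα hα1 hr hM₁0 hKa0 (fun x hx => ?_) (fun x y hx hy => ?_)
    · refine (ha x (hball x hx) x₀ hx₀).trans ?_
      rw [hM₁]
      exact mul_le_mul_of_nonneg_left (Real.rpow_le_rpow (norm_nonneg _) hx hα.le) hKa0
    · rw [sub_sub_sub_cancel_right]
      exact ha x (hball x hx) y (hball y hy)
  have hcb : HB α (fun x => cut x₀ r x • b x) M₂ K₂ := by
    refine cut_smul_hb hα hα1 hr hM₂0 hKb0 (fun x hx => ?_) (fun x y hx hy => ?_)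
    · have e : b x = b x₀ + (b x - b x₀) := by abel
      rw [e, hM₂]
      refine (norm_add_le _ _).trans (add_le_add le_rfl ((hb x (hball x hx) x₀ hx₀).trans ?_))
      exact mul_le_mul_of_nonneg_left (Real.rpow_le_rpow (norm_nonneg _) hx hα.le) hKb0
    · exact hb x (hball x hx) y (hball y hy)
  -- choice of `l₀`
  obtain ⟨l₀, hl₀, hl₀'⟩ : ∃ l₀ : ℝ, 1 ≤ l₀ ∧ ∀ l, l₀ ≤ l →
      C * (2 * M₂ + K₁ + K₂) * l ^ (-(α / 2)) ≤ 1 / 4 := by
    have ht : Filter.Tendsto (fun l : ℝ => C * (2 * M₂ + K₁ + K₂) * l ^ (-(α / 2))) Filter.atTop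
        (nhds (C * (2 * M₂ + K₁ + K₂) * 0)) :=
      (tendsto_rpow_neg_atTop (by linarith)).const_mul _
    rw [mul_zero] at ht
    obtain ⟨l₁, hl₁⟩ := Filter.eventually_atTop.1 (ht.eventually (Iic_mem_nhds (by norm_num : (0:ℝ) < 1 / 4)))
    exact ⟨max 1 l₁, le_max_left _ _, fun l hl => hl₁ l ((le_max_right _ _).trans hl)⟩
  refine ⟨r, hr, fun x hx => hball x ?_, 2 * C, by positivity, l₀, hl₀, ?_⟩
  · rw [mem_closedBall, dist_eq_norm] at hx; linarith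
  intro l hl f A B hB hf
  have hl1 : 1 ≤ l := hl₀.trans hl
  have hl0 : 0 < l := by linarith
  obtain ⟨v, hv2, hvb, hveq⟩ := iterate (α := α) hl0 hC
    (fun x => opJet l (a x₀ + cut x₀ r x • (a x - a x₀)) (cut x₀ r x • b x)) (by
      intro f A B hB hf
      obtain ⟨v, hv2, hveq, hvb⟩ := hres l hl1 f A B hB hf
      have hA : 0 ≤ A := HB.nonneg_left hf
      have hlp : ∀ r : ℝ, 0 ≤ l ^ r := fun r => (Real.rpow_pos_of_pos hl0 r).le
      have hN : 0 ≤ l ^ (α / 2) * A + B := add_nonneg (mul_nonneg (hlp _) hA) hB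
      have hCN : 0 ≤ C * (l ^ (α / 2) * A + B) := mul_nonneg hC hN
      refine ⟨v, hv2, hvb, fun x => (cut x₀ r x • (a x - a x₀)) (fderiv ℝ (fderiv ℝ v) x) +
        (cut x₀ r x • b x) (fderiv ℝ v x), _, _, ?_,
        HB.add (HB.apply hM₁0 hK₁0 hcm hvb.two) (HB.apply hM₂0 hK₂0 hcb hvb.one), ?_, ?_⟩
      · have h1 := hlp (-(α / 2))
        have h2 := hlp (-((1 + α) / 2))
        have h3 := hlp (-(1 / 2))
        positivity
      · exact step_arith hα hα1 hl1 hC hN hM₁0 hK₁0 hM₂0 hK₂0 hrC (hl₀' l hl)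
      · intro x
        rw [opJet_apply, ← hveq x]
        simp only [add_apply, smul_apply]
        ring) f A B hB hf
  refine ⟨v, hv2, fun x hx => ?_, hvb⟩
  have h1 := hveq x
  rw [opJet_apply] at h1
  have hx' : ‖x - x₀‖ ≤ r := by rwa [mem_closedBall, dist_eq_norm] at hx
  rw [cut_eq_one hr hx', one_smul, one_smul, add_sub_cancel] at h1
  exact h1

end Vale.Agent.P272.K.V
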